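import Vale.Agent.Helper26.KTVG.PairAbs
import Vale.Agent.Helper16.KTVG.Plan
import Vale.Agent.Helper1.KTVG.PairFibre

/-!
# P335 general graphs, module M7: the pair fibres of `gOmega n d` are Johnson schemes

Instantiation of `KTV.G26.PairFibres` (helper26's abstract half) for the graph model of
`Vale.Agent.Helper16.KTVG.Defs`, and the resulting proof of `KTVG.JohnsonStmt n d` from
the abstract Johnson pair inequality `KTV.G26.JohnsonPair (Fin n)`.
-/

namespace Vale.Agent.Helper1.PairFibre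

open Finset Vale.Agent.Helper13.Switch
open Classical

variable {n : ℕ}

/-- equal pair labels = same edges away from `u`, `v` -/
lemma labP_eq_iff_sameOff (u v : Fin n) (G0 G : SimpleGraph (Fin n)) :
    KTVG.labP u v G = KTVG.labP u v G0 ↔ SameOff u v G0 G := by
  unfold KTVG.labP KTVG.labOffV
  rw [KTVG.slotLab_eq_iff]
  unfold SameOff KTVG.Rinc
  constructor
  · intro h x y hxu hxv hyu hyv
    refine (h x y ?_).symm
    simp only [Finset.mem_insert, Finset.mem_singleton, not_or]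
    exact ⟨⟨hxu, hxv⟩, hyu, hyv⟩
  · intro h x y hxy
    simp only [Finset.mem_insert, Finset.mem_singleton, not_or] at hxy
    exact (h x y hxy.1.1 hxy.1.2 hxy.2.1 hxy.2.2).symm

/-- membership in the `labP u v`-class of `G0` inside `gOmega n d` -/
lemma mem_class_iff {d : Fin n → ℕ} {u v : Fin n} {G0 : SimpleGraph (Fin n)}
    (hG0 : G0 ∈ KTVG.gOmega n d) (G : SimpleGraph (Fin n))
    {inst : DecidablePred fun y : SimpleGraph (Fin n) => KTVG.labP u v y = KTVG.labP u v G0} :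
    G ∈ @Finset.filter _ (fun y => KTVG.labP u v y = KTVG.labP u v G0) inst (KTVG.gOmega n d)
      ↔ InFibre u v G0 G := by
  rw [Finset.mem_filter, KTVG.mem_gOmega, labP_eq_iff_sameOff]
  rw [KTVG.mem_gOmega] at hG0
  unfold InFibre
  constructor
  · rintro ⟨h1, h2⟩; exact ⟨fun i => by rw [h1 i, hG0 i], h2⟩
  · rintro ⟨h1, h2⟩; exact ⟨fun i => by rw [h1 i, hG0 i], h2⟩

/-- the alternating 4-cycle event in terms of allowed switches -/
theorem swB_iff_allowed (u v w z : Fin n) (G : SimpleGraph (Fin n)) :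
    KTVG.SwB u v w z G ↔ Allowed G u w z v ∨ Allowed G u z w v := by
  unfold KTVG.SwB Allowed
  constructor
  · rintro (⟨h1, h2, h3, h4⟩ | ⟨h1, h2, h3, h4⟩)
    · exact Or.inl ⟨h1, h2.symm, h3, fun h => h4 h.symm⟩
    · exact Or.inr ⟨h1, h2.symm, h3, fun h => h4 h.symm⟩
  · rintro (⟨h1, h2, h3, h4⟩ | ⟨h1, h2, h3, h4⟩)
    · exact Or.inl ⟨h1, h2.symm, h3, fun h => h4 h.symm⟩
    · exact Or.inr ⟨h1, h2.symm, h3, fun h => h4 h.symm⟩

/-- **M7 (concrete half).** Every class of the pair label `labP u v` in `gOmega n d` is a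
Johnson scheme, compatibly with the alternating-4-cycle events `SwB u v w z` and the block
switches `SwBrel u v w z`. -/
theorem pairFibres (d : Fin n → ℕ) {u v : Fin n} (huv : u ≠ v) :
    KTV.G26.PairFibres (KTVG.gOmega n d) (KTVG.labP u v) (KTVG.D4 u v) (KTVG.SwB u v)
      (KTVG.SwBrel u v) := by
  intro G0 hG0
  refine ⟨priv u v G0, (ones u v G0).card, ones u v, mk u v G0, ?_, ?_, ?_, ?_⟩
  · constructor
    · intro y hy
      exact fibre_maps huv ((mem_class_iff hG0 y).mp hy)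
    · intro S hS
      obtain ⟨h1, h2⟩ := powerset_maps huv G0 hS
      exact ⟨(mem_class_iff hG0 _).mpr h1, h2⟩
  · intro w hw z hz hwz
    have hw' := mem_priv.mp hw
    have hz' := mem_priv.mp hz
    exact ⟨huv, hw'.1.symm, hz'.1.symm, hw'.2.1.symm, hz'.2.1.symm, hwz⟩
  · intro w z hD U hU
    obtain ⟨-, huw, huz, hvw, hvz, hwz⟩ := hD
    have hUP := (mem_powersetCard.mp hU).1
    rw [swB_iff_allowed, allowed_mk_iff huv G0 hUP hvw.symm huz.symm,
      allowed_mk_iff huv G0 hUP hvz.symm huw.symm]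
    constructor
    · rintro (⟨h1, h2, h3⟩ | ⟨h1, h2, h3⟩)
      · exact ⟨hUP h1, h2, Or.inl ⟨h1, h3⟩⟩
      · exact ⟨h2, hUP h1, Or.inr ⟨h3, h1⟩⟩
    · rintro ⟨h1, h2, (⟨h3, h4⟩ | ⟨h3, h4⟩)⟩
      · exact Or.inl ⟨h3, h2, h4⟩
      · exact Or.inr ⟨h4, h1, h3⟩
  · intro U hU i hi j hj
    have hUP := (mem_powersetCard.mp hU).1
    rw [mem_sdiff] at hj
    obtain ⟨hal, hsw⟩ := switch_mk huv G0 hi (hUP hi) hj.1 hj.2
    exact ⟨Or.inl ⟨hal, hsw.symm⟩, Or.inr ⟨hal, hsw.symm⟩⟩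

/-- **M4 + M7.** `KTVG.JohnsonStmt n d` from the abstract Johnson pair inequality. -/
theorem johnsonStmt_of_johnsonPair (hJ : KTV.G26.JohnsonPair (Fin n)) (d : Fin n → ℕ) :
    KTVG.JohnsonStmt n d := by
  intro u v huv f
  have h := KTV.G26.pair_charge_bound hJ (KTVG.gOmega n d) (KTVG.labP u v) (KTVG.D4 u v)
    (KTVG.SwB u v) (KTVG.SwBrel u v) (pairFibres d huv) f
  exact h

/-- weak form: the same with the constant `c` of `KTV.G26.JohnsonPairC` -/
theorem johnson_weak_of_johnsonPairC {c : ℝ} (hJ : KTV.G26.JohnsonPairC (Fin n) c)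
    (d : Fin n → ℕ) {u v : Fin n} (huv : u ≠ v) (f : SimpleGraph (Fin n) → ℝ) :
    (∑ w, ∑ z, if KTVG.D4 u v w z then KTVG.charge (KTVG.gOmega n d) u v w z f else 0)
      ≤ (1 / 4 : ℝ) * (∑ w, ∑ z, if KTVG.D4 u v w z then KTVG.swD (KTVG.gOmega n d) u v w z f
          else 0) - c * KTVG.pairE (KTVG.gOmega n d) u v f := by
  have h := KTV.G26.pair_charge_bound hJ (KTVG.gOmega n d) (KTVG.labP u v) (KTVG.D4 u v)
    (KTVG.SwB u v) (KTVG.SwBrel u v) (pairFibres d huv) f
  exact h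

/-- Johnson–Poincaré inequality for the pair fibres of `gOmega n d` -/
theorem pair_poincare (d : Fin n → ℕ) {u v : Fin n} (huv : u ≠ v)
    (f : SimpleGraph (Fin n) → ℝ) :
    8 * KTVG.pairE (KTVG.gOmega n d) u v f
      ≤ ∑ w, ∑ z, if KTVG.D4 u v w z then KTVG.swD (KTVG.gOmega n d) u v w z f else 0 := by
  have h := KTV.G26.pair_poincare (KTVG.gOmega n d) (KTVG.labP u v) (KTVG.D4 u v)
    (KTVG.SwB u v) (KTVG.SwBrel u v) (pairFibres d huv) f
  exact h

end Vale.Agent.Helper1.PairFibre
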